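import Vale.Agent.P033.Link

/-! # P033: Frank type rows `h_{ml+k} = (-1)^{kl} q_k r_l` (helper18) -/

namespace Vale.P033.FR
open Finset BigOperators

/-- the Frank type row as a function on `ℕ` -/
def fr (m L : ℕ) (q r : ℕ → ℤ) (j : ℕ) : ℤ :=
  (-1) ^ ((j % m) * (j / m)) * q (j % m) * r ((j / m) % L)

/-- twisted outer autocorrelation -/
def G (L : ℕ) (r : ℕ → ℤ) (k lam : ℕ) : ℤ :=
  ∑ l ∈ range L, (-1) ^ (k * l) * r l * r ((l + lam) % L)

theorem fr_eq {m L : ℕ} (q r : ℕ → ℤ) {l k : ℕ} (hk : k < m) :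
    fr m L q r (m * l + k) = (-1) ^ (k * l) * q k * r (l % L) := by
  unfold fr
  rw [Nat.mul_add_mod, Nat.mod_eq_of_lt hk, Nat.mul_add_div (by omega), Nat.div_eq_of_lt hk,
    add_zero]

theorem npow_two (x : ℕ) : (-1 : ℤ) ^ (2 * x) = 1 := by
  rw [pow_mul]; norm_num

theorem gen {m L k : ℕ} (hm : Even m) (hk : k < m) (q r : ℕ → ℤ) (lam : ℕ) :
    ∑ j ∈ range (m * L), fr m L q r j * fr m L q r (j + (m * lam + k)) =
      (∑ j ∈ range (m - k), q j * q (j + k) * (-1) ^ ((j + k) * lam)) * G L r k lam +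
      (∑ i ∈ range k, q (m - k + i) * q i * (-1) ^ (i * (lam + 1))) * G L r k (lam + 1) := by
  obtain ⟨M, rfl⟩ : ∃ M, m = M + k := ⟨m - k, by omega⟩
  rw [Nat.add_sub_cancel]
  have h0 : ∀ l ∈ range L, ∑ j ∈ range (M + k), fr (M + k) L q r ((M + k) * l + j) *
      fr (M + k) L q r ((M + k) * l + j + ((M + k) * lam + k)) =
      (∑ j ∈ range M, q j * q (j + k) * (-1) ^ ((j + k) * lam)) *
        ((-1) ^ (k * l) * r l * r ((l + lam) % L)) +
      (∑ i ∈ range k, q (M + i) * q i * (-1) ^ (i * (lam + 1))) *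
        ((-1) ^ (k * l) * r l * r ((l + (lam + 1)) % L)) := by
    intro l hl
    have hl' := Finset.mem_range.mp hl
    rw [Finset.sum_range_add]
    congr 1
    · rw [Finset.sum_mul]
      refine Finset.sum_congr rfl fun j hj => ?_
      have hj' := Finset.mem_range.mp hj
      have e1 : (M + k) * l + j + ((M + k) * lam + k) = (M + k) * (l + lam) + (j + k) := by ring
      rw [e1, fr_eq q r (by omega), fr_eq q r (by omega), Nat.mod_eq_of_lt hl']
      have e2 : ((-1 : ℤ)) ^ (j * l) * (-1) ^ ((j + k) * (l + lam)) =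
          (-1) ^ (k * l) * (-1) ^ ((j + k) * lam) := by
        rw [← pow_add, ← pow_add]
        have e3 : j * l + (j + k) * (l + lam) = 2 * (j * l) + (k * l + (j + k) * lam) := by ring
        rw [e3, pow_add, npow_two, one_mul]
      linear_combination (q j * q (j + k) * r l * r ((l + lam) % L)) * e2
    · rw [Finset.sum_mul]
      refine Finset.sum_congr rfl fun i hi => ?_
      have hi' := Finset.mem_range.mp hi
      have e1 : (M + k) * l + (M + i) + ((M + k) * lam + k) = (M + k) * (l + (lam + 1)) + i := by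
        ring
      rw [e1, fr_eq q r (by omega), fr_eq q r (by omega), Nat.mod_eq_of_lt hl']
      have e2 : ((-1 : ℤ)) ^ ((M + i) * l) * (-1) ^ (i * (l + (lam + 1))) =
          (-1) ^ (k * l) * (-1) ^ (i * (lam + 1)) := by
        rw [← pow_add, ← pow_add]
        obtain ⟨c, hc⟩ := hm
        have e3 : (M + i) * l + i * (l + (lam + 1)) + 2 * (k * l) =
            2 * (i * l + c * l) + (k * l + i * (lam + 1)) := by
          have : M * l + k * l = c * l + c * l := by
            rw [← add_mul, ← add_mul, hc]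
          nlinarith
        have e4 := npow_two (k * l)
        calc (-1 : ℤ) ^ ((M + i) * l + i * (l + (lam + 1)))
            = (-1 : ℤ) ^ ((M + i) * l + i * (l + (lam + 1)) + 2 * (k * l)) := by
              rw [pow_add _ _ (2 * (k * l)), e4, mul_one]
          _ = _ := by rw [e3, pow_add, npow_two, one_mul]
      linear_combination (q (M + i) * q i * r l * r ((l + (lam + 1)) % L)) * e2
  rw [Prod.sum_mul, Finset.sum_congr rfl h0, Finset.sum_add_distrib, ← Finset.mul_sum,
    ← Finset.mul_sum]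
  rfl

theorem G_even {L : ℕ} (r : ℕ → ℤ) {k : ℕ} (hk : Even k) (lam : ℕ) : G L r k lam = G L r 0 lam := by
  unfold G
  refine Finset.sum_congr rfl fun l _ => ?_
  obtain ⟨c, rfl⟩ := hk
  have e : (c + c) * l = 2 * (c * l) := by ring
  rw [e, npow_two, zero_mul, pow_zero]

theorem reindex {L : ℕ} [NeZero L] (f : ℕ → ℤ) (l : ℕ) :
    ∑ lam ∈ range L, f ((l + lam) % L) = ∑ mu ∈ range L, f mu := by
  have h1 := sum_zmod (n := L) fun x : ZMod L => f ((l : ZMod L) + x).val
  have h2 := sum_zmod (n := L) fun x : ZMod L => f x.val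
  have h3 : ∑ x : ZMod L, f ((l : ZMod L) + x).val = ∑ x : ZMod L, f x.val :=
    Equiv.sum_comp (Equiv.addLeft (l : ZMod L)) fun x => f x.val
  rw [h1, h2] at h3
  have h4 : ∀ lam ∈ range L, f ((l : ZMod L) + (lam : ZMod L)).val = f ((l + lam) % L) := by
    intro lam _
    rw [← Nat.cast_add, ZMod.val_natCast]
  have h5 : ∀ mu ∈ range L, f (mu : ZMod L).val = f mu := by
    intro mu hmu
    rw [ZMod.val_natCast, Nat.mod_eq_of_lt (Finset.mem_range.mp hmu)]
  rw [Finset.sum_congr rfl h4, Finset.sum_congr rfl h5] at h3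
  exact h3

theorem alt_zero {L : ℕ} (hL : Even L) : ∑ l ∈ range L, (-1 : ℤ) ^ l = 0 := by
  obtain ⟨c, rfl⟩ := hL
  rw [← two_mul]
  induction c with
  | zero => simp
  | succ c ih =>
    have e : 2 * (c + 1) = 2 * c + 1 + 1 := by ring
    rw [e, Finset.sum_range_succ, Finset.sum_range_succ, ih, pow_succ, npow_two]
    norm_num

theorem sign_mod {L : ℕ} (hL : Even L) (x : ℕ) : (-1 : ℤ) ^ (x % L) = (-1) ^ x := by
  obtain ⟨c, rfl⟩ := hL
  have h := Nat.mod_add_div x (c + c)
  have h2 : (-1 : ℤ) ^ x = (-1) ^ (x % (c + c) + (c + c) * (x / (c + c))) := by rw [h]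
  rw [h2, pow_add, ← two_mul, mul_assoc, npow_two, mul_one]

/-- the sums over `λ` -/
theorem sumG {L : ℕ} [NeZero L] (r : ℕ → ℤ) (k : ℕ) :
    ∑ lam ∈ range L, G L r k lam = (∑ l ∈ range L, (-1) ^ (k * l) * r l) * ∑ l ∈ range L, r l := by
  unfold G
  rw [Finset.sum_comm, Finset.sum_mul]
  refine Finset.sum_congr rfl fun l _ => ?_
  rw [← Finset.mul_sum, reindex]

theorem sumGalt {L : ℕ} [NeZero L] (hL : Even L) (r : ℕ → ℤ) :
    ∑ lam ∈ range L, (-1) ^ lam * G L r 0 lam = (∑ l ∈ range L, (-1) ^ l * r l) ^ 2 := by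
  have h1 : ∀ lam ∈ range L, (-1 : ℤ) ^ lam * G L r 0 lam =
      ∑ l ∈ range L, ((-1) ^ l * r l) * ((-1) ^ ((l + lam) % L) * r ((l + lam) % L)) := by
    intro lam _
    unfold G
    rw [Finset.mul_sum]
    refine Finset.sum_congr rfl fun l _ => ?_
    rw [sign_mod hL, zero_mul, pow_zero]
    have e : (-1 : ℤ) ^ l * (-1) ^ (l + lam) = (-1) ^ lam := by
      rw [← pow_add, ← add_assoc, ← two_mul, pow_add, npow_two, one_mul]
    linear_combination (-(r l * r ((l + lam) % L))) * e
  rw [Finset.sum_congr rfl h1, Finset.sum_comm, sq, Finset.sum_mul]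
  refine Finset.sum_congr rfl fun l _ => ?_
  rw [← Finset.mul_sum, reindex fun x => (-1) ^ x * r x]

theorem main {m L : ℕ} (hm : Even m) (hm4 : 4 ≤ m) (hL : Even L) (hL4 : 4 ≤ L) (q r : ℕ → ℤ)
    (hq : ∀ k < m, q k = 1 ∨ q k = -1) (hr : ∀ l < L, r l = 1 ∨ r l = -1)
    (hz : ∀ t, 0 < t → t < m * L →
      ∑ j ∈ range (m * L), fr m L q r j * fr m L q r (j + t) = 0) : False := by
  have : NeZero L := ⟨by omega⟩
  have hmL : m * (L - 1) + m = m * L := by
    obtain ⟨K, rfl⟩ : ∃ K, L = K + 1 := ⟨L - 1, by omega⟩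
    rw [Nat.add_sub_cancel]; ring
  have hlt : ∀ lam k, lam < L → k < m → m * lam + k < m * L := by
    intro lam k h1 h2
    have : m * lam ≤ m * (L - 1) := Nat.mul_le_mul_left _ (by omega)
    omega
  -- P(λ) = 0 for even λ
  have he : ∀ lam, 0 < lam → lam < L → Even lam → G L r 0 lam = 0 := by
    intro lam h0 h1 h2
    have h3 := gen (k := 0) (L := L) hm (by omega) q r lam
    rw [hz _ (by
      have : 0 < m * lam := by positivity
      omega) (hlt lam 0 h1 (by omega)), Finset.sum_range_zero, zero_mul, add_zero, Nat.sub_zero] at h3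
    have h4 : ∀ j ∈ range m, q j * q (j + 0) * (-1) ^ ((j + 0) * lam) = 1 := by
      intro j hj
      obtain ⟨c, rfl⟩ := h2
      rw [add_zero, Prod.sq (hq j (Finset.mem_range.mp hj)), one_mul]
      have : j * (c + c) = 2 * (j * c) := by ring
      rw [this, npow_two]
    rw [Finset.sum_congr rfl h4, Finset.sum_const, Finset.card_range, nsmul_eq_mul, mul_one] at h3
    have h5 : (m : ℤ) ≠ 0 := by omega
    rcases mul_eq_zero.mp h3.symm with h | h
    · exact absurd h h5
    · exact h
  have h00 : G L r 0 0 = L := by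
    unfold G
    have : ∀ l ∈ range L, (-1 : ℤ) ^ (0 * l) * r l * r ((l + 0) % L) = 1 := by
      intro l hl
      rw [zero_mul, pow_zero, one_mul, add_zero, Nat.mod_eq_of_lt (Finset.mem_range.mp hl),
        Prod.sq (hr l (Finset.mem_range.mp hl))]
    rw [Finset.sum_congr rfl this, Finset.sum_const, Finset.card_range, nsmul_eq_mul, mul_one]
  have h10 : G L r 1 0 = 0 := by
    unfold G
    have : ∀ l ∈ range L, (-1 : ℤ) ^ (1 * l) * r l * r ((l + 0) % L) = (-1) ^ l := by
      intro l hl
      rw [one_mul, add_zero, Nat.mod_eq_of_lt (Finset.mem_range.mp hl), mul_assoc,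
        Prod.sq (hr l (Finset.mem_range.mp hl)), mul_one]
    rw [Finset.sum_congr rfl this, alt_zero hL]
  -- N(λ) = 0
  have hN : ∀ lam, lam < L → G L r 1 lam = 0 := by
    intro lam
    induction lam with
    | zero => intro _; exact h10
    | succ lam ih =>
      intro h1
      have h2 := ih (by omega)
      have h3 := gen (k := 1) (L := L) hm (by omega) q r lam
      rw [hz _ (by omega) (hlt lam 1 (by omega) (by omega)), h2, mul_zero, zero_add,
        Finset.sum_range_one, add_zero, zero_mul, pow_zero, mul_one] at h3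
      rcases mul_eq_zero.mp h3.symm with h | h
      · rcases hq (m - 1) (by omega) with a | a <;> rcases hq 0 (by omega) with b | b <;>
          rw [a, b] at h <;> norm_num at h
      · exact h
  have hm2 : Even (m - 2) := by
    obtain ⟨c, hc⟩ := hm
    exact ⟨c - 1, by omega⟩
  -- B * P(1) = 0
  have hB : (∑ j ∈ range (m - 2), q j * q (j + 2) * (-1) ^ ((j + 2) * 1)) * G L r 0 1 = 0 := by
    have h3 := gen (k := 2) (L := L) hm (by omega) q r 1
    rw [hz _ (by omega) (hlt 1 2 (by omega) (by omega)), G_even r (by decide) 1,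
      G_even r (by decide) (1 + 1), he 2 (by omega) (by omega) (by decide), mul_zero, add_zero] at h3
    exact h3.symm
  have hgen2 : ∀ lam, lam < L → (q 0 * q (m - 2) + q 1 * q (m - 1) * (-1) ^ lam) * G L r 0 lam +
      (∑ i ∈ range (m - 2), q (2 + i) * q i * (-1) ^ (i * (lam + 1))) * G L r 0 (lam + 1) = 0 := by
    intro lam h1
    have h3 := gen (k := m - 2) (L := L) hm (by omega) q r lam
    have e1 : m - (m - 2) = 2 := by omega
    have e2 : 1 + (m - 2) = m - 1 := by omega
    rw [hz _ (by omega) (hlt lam (m - 2) h1 (by omega)), G_even r hm2, G_even r hm2, e1,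
      Finset.sum_range_succ, Finset.sum_range_one, zero_add, e2] at h3
    have e3 : (-1 : ℤ) ^ ((m - 2) * lam) = 1 := by
      obtain ⟨c, hc⟩ := hm2
      rw [hc, ← two_mul, mul_assoc, npow_two]
    have e4 : (-1 : ℤ) ^ ((m - 1) * lam) = (-1) ^ lam := by
      rw [← e2, add_mul, one_mul, pow_add, e3, mul_one]
    rw [e3, e4, mul_one] at h3
    exact h3.symm
  have hab : q 0 * q (m - 2) + q 1 * q (m - 1) = 0 := by
    have h3 := hgen2 0 (by omega)
    rw [pow_zero, mul_one, h00] at h3
    have e1 : ∑ i ∈ range (m - 2), q (2 + i) * q i * (-1) ^ (i * (0 + 1)) =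
        ∑ j ∈ range (m - 2), q j * q (j + 2) * (-1) ^ ((j + 2) * 1) := by
      refine Finset.sum_congr rfl fun i _ => ?_
      rw [add_comm 2 i, zero_add, mul_one, mul_one, pow_add]
      norm_num
      ring
    rw [e1, zero_add, hB, add_zero] at h3
    have h5 : (L : ℤ) ≠ 0 := by omega
    rcases mul_eq_zero.mp h3 with h | h
    · exact h
    · exact absurd h h5
  have hodd : ∀ lam, Odd lam → lam + 1 < L → G L r 0 lam = 0 := by
    intro lam h1 h2
    have h3 := hgen2 lam (by omega)
    rw [he (lam + 1) (by omega) h2 h1.add_one, mul_zero, add_zero, h1.neg_one_pow] at h3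
    rcases mul_eq_zero.mp h3 with h | h
    · exfalso
      rcases hq 0 (by omega) with a | a <;> rcases hq 1 (by omega) with b | b <;>
        rcases hq (m - 2) (by omega) with c | c <;> rcases hq (m - 1) (by omega) with d | d <;>
        rw [a, b, c, d] at h hab <;> first | omega | (norm_num at h; done) | (norm_num at hab; done)
    · exact h
  have hlast : G L r 0 (L - 1) = 0 := by
    have h1 := hodd 1 (by decide) (by omega)
    rw [← h1]
    unfold G
    have h2 := reindex (L := L) (fun mu => r mu * r ((mu + 1) % L)) (L - 1)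
    have h3 : ∀ l ∈ range L, (-1 : ℤ) ^ (0 * l) * r l * r ((l + 1) % L) =
        r l * r ((l + 1) % L) := by
      intro l _
      rw [zero_mul, pow_zero, one_mul]
    rw [Finset.sum_congr rfl h3, ← h2]
    refine Finset.sum_congr rfl fun l hl => ?_
    have hl' := Finset.mem_range.mp hl
    have e1 : ((L - 1 + l) % L + 1) % L = l := by
      rw [Nat.mod_add_mod]
      have : L - 1 + l + 1 = l + L := by omega
      rw [this, Nat.add_mod_right, Nat.mod_eq_of_lt hl']
    rw [e1, zero_mul, pow_zero, one_mul, add_comm l (L - 1)]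
    ring
  have hall : ∀ lam ∈ range L, lam ≠ 0 → G L r 0 lam = 0 := by
    intro lam hlam h0
    have h1 := Finset.mem_range.mp hlam
    rcases Nat.even_or_odd lam with h2 | h2
    · exact he lam (by omega) h1 h2
    · by_cases h3 : lam + 1 < L
      · exact hodd lam h2 h3
      · have : lam = L - 1 := by omega
        rw [this]
        exact hlast
  have s1 := sumG (L := L) r 0
  have s2 := sumG (L := L) r 1
  have s3 := sumGalt hL r
  rw [Finset.sum_eq_single 0 hall (fun h => absurd (Finset.mem_range.mpr (by omega)) h), h00] at s1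
  rw [Finset.sum_eq_zero fun lam hlam => hN lam (Finset.mem_range.mp hlam)] at s2
  rw [Finset.sum_eq_single 0 (fun lam hlam h0 => by rw [hall lam hlam h0, mul_zero])
    (fun h => absurd (Finset.mem_range.mpr (by omega)) h), h00, pow_zero, one_mul] at s3
  simp only [zero_mul, pow_zero, one_mul] at s1 s2
  have hLp : (0 : ℤ) < L := by omega
  rcases mul_eq_zero.mp s2.symm with h | h
  · rw [h] at s3
    norm_num at s3
    omega
  · rw [h] at s1
    norm_num at s1
    omega

end Vale.P033.FR
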