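import Vale.Agent.P033.Link

/-! # P033: the shift by half the order (helper18, after an idea of helper17) -/

namespace Vale.P033.Half
open Finset BigOperators

theorem count_even {N : ℕ} (H : ℕ → ℤ) (hH : ∀ j, H j = 1 ∨ H j = -1) (s : ℕ)
    (hper : ∀ j, H (j + (N + N)) = H j)
    (h1 : ∑ j ∈ range (N + N), H j * H (j + s) = 0)
    (h2 : ∑ j ∈ range (N + N), H j * H (j + (s + N)) = 0) :
    Even ((range N).filter fun j => H (j + N) = -H j ∧ H (j + s + N) = -H (j + s)).card := by
  rw [Finset.sum_range_add] at h1 h2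
  have h3 : ∑ j ∈ range N, (H j - H (j + N)) * (H (j + s) - H (j + s + N)) = 0 := by
    have h4 : ∑ j ∈ range N, (H j - H (j + N)) * (H (j + s) - H (j + s + N)) =
        (∑ j ∈ range N, H j * H (j + s) + ∑ j ∈ range N, H (N + j) * H (N + j + s)) -
        (∑ j ∈ range N, H j * H (j + (s + N)) + ∑ j ∈ range N, H (N + j) * H (N + j + (s + N))) := by
      rw [← Finset.sum_add_distrib, ← Finset.sum_add_distrib, ← Finset.sum_sub_distrib]
      refine Finset.sum_congr rfl fun j _ => ?_
      have e1 : N + j + (s + N) = j + s + (N + N) := by ring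
      have e2 : N + j + s = j + s + N := by ring
      rw [e1, e2, hper, add_comm N j, ← add_assoc j s N]
      ring
    rw [h4, h1, h2, sub_zero]
  have h5 : ∀ j ∈ range N, (8 : ℤ) ∣ (H j - H (j + N)) * (H (j + s) - H (j + s + N)) -
      4 * (if H (j + N) = -H j ∧ H (j + s + N) = -H (j + s) then 1 else 0) := by
    intro j _
    rcases hH j with a | a <;> rcases hH (j + N) with b | b <;> rcases hH (j + s) with c | c <;>
      rcases hH (j + s + N) with d | d <;> rw [a, b, c, d] <;> norm_num
  have h6 := Finset.dvd_sum h5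
  rw [Finset.sum_sub_distrib, h3, ← Finset.mul_sum, Finset.sum_boole, zero_sub, dvd_neg] at h6
  obtain ⟨c, hc⟩ := h6
  rw [Nat.even_iff]
  have h7 : (((range N).filter fun j => H (j + N) = -H j ∧ H (j + s + N) = -H (j + s)).card : ℤ)
      = 2 * c := by
    have h8 := hc
    push_cast at h8
    linarith
  omega

theorem count_half {N : ℕ} (H : ℕ → ℤ) (hH : ∀ j, H j = 1 ∨ H j = -1)
    (hper : ∀ j, H (j + (N + N)) = H j)
    (h1 : ∑ j ∈ range (N + N), H j * H (j + N) = 0) :
    2 * ((range N).filter fun j => H (j + N) = -H j).card = N := by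
  rw [Finset.sum_range_add] at h1
  have h2 : ∀ j ∈ range N, H (N + j) * H (N + j + N) = H j * H (j + N) := by
    intro j _
    have e1 : N + j + N = j + (N + N) := by ring
    rw [e1, hper, add_comm N j]
    ring
  have h3 : ∀ j ∈ range N, H j * H (j + N) = 1 - 2 * (if H (j + N) = -H j then 1 else 0) := by
    intro j _
    rcases hH j with a | a <;> rcases hH (j + N) with b | b <;> rw [a, b] <;> norm_num
  rw [Finset.sum_congr rfl h2, Finset.sum_congr rfl h3, Finset.sum_sub_distrib, ← Finset.mul_sum,
    Finset.sum_boole, Finset.sum_const, Finset.card_range, nsmul_eq_mul, mul_one] at h1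
  have h4 : (2 : ℤ) * (((range N).filter fun j => H (j + N) = -H j).card : ℤ) = N := by
    linarith
  exact_mod_cast h4

end Vale.P033.Half
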