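import Vale.Agent.P033.Prod

/-! # P033: circulant Hadamard rows, sums over `ZMod n` (helper18) -/

namespace Vale.P033
open Finset BigOperators

theorem sum_zmod {n : ℕ} [NeZero n] (f : ZMod n → ℤ) :
    ∑ j, f j = ∑ j ∈ range n, f (j : ZMod n) := by
  refine Finset.sum_nbij' (fun j => j.val) (fun j => (j : ZMod n)) ?_ ?_ ?_ ?_ ?_
  · intro j _; exact Finset.mem_range.mpr (ZMod.val_lt j)
  · intro _ _; exact Finset.mem_univ _
  · intro j _; exact ZMod.natCast_zmod_val j
  · intro j hj; exact ZMod.val_cast_of_lt (Finset.mem_range.mp hj)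
  · intro j _; rw [ZMod.natCast_zmod_val]

/-- the periodic autocorrelations vanish -/
theorem autocorr_zero {n : ℕ} [NeZero n] (h : ZMod n → ℤ)
    (H : (Matrix.of fun i j : ZMod n => h (j - i)) *
      (Matrix.of fun i j : ZMod n => h (j - i)).transpose = (n : ℤ) • 1) (t : ZMod n)
    (ht : t ≠ 0) : ∑ j, h j * h (j + t) = 0 := by
  have h1 := congrFun (congrFun H 0) (-t)
  rw [Matrix.mul_apply, Matrix.smul_apply, Matrix.one_apply_ne (by
    intro h; exact ht (neg_eq_zero.mp h.symm))] at h1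
  simp only [Matrix.of_apply, Matrix.transpose_apply, sub_zero, sub_neg_eq_add, smul_zero] at h1
  exact h1

/-- the same over `ℕ` -/
theorem autocorr_nat {n : ℕ} [NeZero n] (h : ZMod n → ℤ)
    (H : (Matrix.of fun i j : ZMod n => h (j - i)) *
      (Matrix.of fun i j : ZMod n => h (j - i)).transpose = (n : ℤ) • 1) (t : ℕ)
    (ht0 : 0 < t) (ht : t < n) :
    ∑ j ∈ range n, h (j : ZMod n) * h ((j + t : ℕ) : ZMod n) = 0 := by
  have h0 : ((t : ℕ) : ZMod n) ≠ 0 := by
    intro h0
    rw [ZMod.natCast_eq_zero_iff] at h0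
    exact absurd (Nat.le_of_dvd ht0 h0) (by omega)
  have h1 := autocorr_zero h H _ h0
  rw [sum_zmod] at h1
  rw [← h1]
  refine Finset.sum_congr rfl fun j _ => ?_
  push_cast
  rfl

theorem prod_dist {m L : ℕ} (hm : 2 ≤ m) (hL : 2 ≤ L) [NeZero (m * L)] (h : ZMod (m * L) → ℤ)
    (hh : ∀ j, h j = 1 ∨ h j = -1)
    (H : (Matrix.of fun i j : ZMod (m * L) => h (j - i)) *
      (Matrix.of fun i j : ZMod (m * L) => h (j - i)).transpose = ((m * L : ℕ) : ℤ) • 1)
    (q r : ℕ → ℤ) (hq : ∀ k < m, q k = 1 ∨ q k = -1) (hr : ∀ l < L, r l = 1 ∨ r l = -1) :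
    (L : ℤ) ≤ 6 * ((Finset.univ.filter fun j : ZMod (m * L) =>
      h j ≠ q (j.val % m) * r (j.val / m)).card : ℤ) := by
  set p : ZMod (m * L) → ℤ := fun j => q (j.val % m) * r (j.val / m) with hp
  have hps : ∀ j, p j = 1 ∨ p j = -1 := by
    intro j
    have h1 := hq (j.val % m) (Nat.mod_lt _ (by omega))
    have h2 := hr (j.val / m) (Nat.div_lt_of_lt_mul (ZMod.val_lt j))
    show q (j.val % m) * r (j.val / m) = 1 ∨ q (j.val % m) * r (j.val / m) = -1
    rcases h1 with h1 | h1 <;> rcases h2 with h2 | h2 <;> rw [h1, h2] <;> norm_num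
  have hpr : ∀ j : ℕ, p (j : ZMod (m * L)) = Prod.pr m L q r j := by
    intro j
    show q (((j : ℕ) : ZMod (m * L)).val % m) * r (((j : ℕ) : ZMod (m * L)).val / m) = _
    rw [ZMod.val_natCast, Nat.mod_mul_right_mod, Nat.mod_mul_right_div_self]
    rfl
  have key : ∀ t : ℕ, 0 < t → t < m * L →
      |∑ j ∈ range (m * L), Prod.pr m L q r j * Prod.pr m L q r (j + t)| ≤
        4 * ((Finset.univ.filter fun j : ZMod (m * L) => h j ≠ p j).card : ℤ) := by
    intro t ht0 ht
    have h1 := Prod.perturb h p hh hps (t : ZMod (m * L))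
    have h0 : ((t : ℕ) : ZMod (m * L)) ≠ 0 := by
      intro h0
      rw [ZMod.natCast_eq_zero_iff] at h0
      exact absurd (Nat.le_of_dvd ht0 h0) (by omega)
    rw [autocorr_zero h H _ h0, sub_zero, sum_zmod] at h1
    have h2 : ∀ j ∈ range (m * L), p (j : ZMod (m * L)) * p ((j : ZMod (m * L)) + (t : ZMod (m * L)))
        = Prod.pr m L q r j * Prod.pr m L q r (j + t) := by
      intro j _
      rw [← Nat.cast_add, hpr, hpr]
    rw [Finset.sum_congr rfl h2] at h1
    exact h1
  have hmL : m < m * L := by nlinarith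
  have k1 := key m (by omega) hmL
  have k2 := key 1 (by omega) (by omega)
  have k3 := key (m - 1) (by omega) (by omega)
  rw [Prod.shift_m hL q r hq] at k1
  rw [Prod.shift_one hm q r hr] at k2
  rw [Prod.shift_pred hm q r hr] at k3
  refine Prod.concl (m := m) (L := L) (a := Prod.aa m q) (b := q 0 * q (m - 1)) (x := Prod.xx L r)
    (by omega) (by omega) ?_ k1 ?_ k3
  · rcases hq 0 (by omega) with h1 | h1 <;> rcases hq (m - 1) (by omega) with h2 | h2 <;>
      rw [h1, h2] <;> norm_num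
  · rw [mul_comm (q 0)]
    exact k2

end Vale.P033
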