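import Mathlib

/-! # P033: periodic autocorrelations of product rows (helper18) -/

namespace Vale.P033.Prod
open Finset BigOperators

/-- sum over `range (m * L)` as a double sum -/
theorem sum_mul (m : ℕ) (f : ℕ → ℤ) : ∀ L : ℕ,
    ∑ j ∈ range (m * L), f j = ∑ l ∈ range L, ∑ k ∈ range m, f (m * l + k) := by
  intro L
  induction L with
  | zero => simp
  | succ L ih =>
    rw [Nat.mul_succ, Finset.sum_range_add, ih, Finset.sum_range_succ]

/-- the product row, as a periodic function on `ℕ` -/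
def pr (m L : ℕ) (q r : ℕ → ℤ) (j : ℕ) : ℤ := q (j % m) * r ((j / m) % L)

theorem pr_eq {m L : ℕ} (q r : ℕ → ℤ) {l k : ℕ} (hk : k < m) :
    pr m L q r (m * l + k) = q k * r (l % L) := by
  unfold pr
  rw [Nat.mul_add_mod, Nat.mod_eq_of_lt hk, Nat.mul_add_div (by omega), Nat.div_eq_of_lt hk,
    add_zero]

/-- outer autocorrelation at shift one -/
def xx (L : ℕ) (r : ℕ → ℤ) : ℤ := ∑ l ∈ range L, r l * r ((l + 1) % L)

/-- inner aperiodic autocorrelation at shift one -/
def aa (m : ℕ) (q : ℕ → ℤ) : ℤ := ∑ k ∈ range (m - 1), q k * q (k + 1)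

theorem sq {e : ℤ} (h : e = 1 ∨ e = -1) : e * e = 1 := by
  rcases h with h | h <;> rw [h] <;> norm_num

theorem shift_m {m L : ℕ} (hL : 2 ≤ L) (q r : ℕ → ℤ)
    (hq : ∀ k < m, q k = 1 ∨ q k = -1) :
    ∑ j ∈ range (m * L), pr m L q r j * pr m L q r (j + m) = m * xx L r := by
  rw [sum_mul, xx, Finset.mul_sum]
  refine Finset.sum_congr rfl fun l hl => ?_
  have hl' := Finset.mem_range.mp hl
  have h1 : ∀ k ∈ range m, pr m L q r (m * l + k) * pr m L q r (m * l + k + m) =
      r l * r ((l + 1) % L) := by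
    intro k hk
    have hk' := Finset.mem_range.mp hk
    have e1 : m * l + k + m = m * (l + 1) + k := by ring
    rw [e1, pr_eq q r hk', pr_eq q r hk', Nat.mod_eq_of_lt hl']
    have := sq (hq k hk')
    linear_combination (r l * r ((l + 1) % L)) * this
  rw [Finset.sum_congr rfl h1, Finset.sum_const, Finset.card_range, nsmul_eq_mul]

theorem shift_one {m L : ℕ} (hm : 2 ≤ m) (q r : ℕ → ℤ)
    (hr : ∀ l < L, r l = 1 ∨ r l = -1) :
    ∑ j ∈ range (m * L), pr m L q r j * pr m L q r (j + 1) =
      L * aa m q + q (m - 1) * q 0 * xx L r := by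
  have h0 : ∀ l ∈ range L, ∑ k ∈ range m, pr m L q r (m * l + k) * pr m L q r (m * l + k + 1) =
      aa m q + q (m - 1) * q 0 * (r l * r ((l + 1) % L)) := by
    intro l hl
    have hl' := Finset.mem_range.mp hl
    obtain ⟨M, rfl⟩ : ∃ M, m = M + 1 := ⟨m - 1, by omega⟩
    rw [Finset.sum_range_succ, aa]
    congr 1
    · refine Finset.sum_congr rfl fun k hk => ?_
      have hk' := Finset.mem_range.mp hk
      rw [add_assoc, pr_eq q r (by omega), pr_eq q r (by omega), Nat.mod_eq_of_lt hl']
      have := sq (hr l hl')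
      linear_combination (q k * q (k + 1)) * this
    · have e1 : (M + 1) * l + M + 1 = (M + 1) * (l + 1) + 0 := by ring
      rw [e1, pr_eq q r (by omega), pr_eq q r (by omega), Nat.mod_eq_of_lt hl', Nat.add_sub_cancel]
      ring
  rw [sum_mul, Finset.sum_congr rfl h0, Finset.sum_add_distrib, Finset.sum_const,
    Finset.card_range, nsmul_eq_mul, ← Finset.mul_sum, xx]

theorem shift_pred {m L : ℕ} (hm : 2 ≤ m) (q r : ℕ → ℤ)
    (hr : ∀ l < L, r l = 1 ∨ r l = -1) :
    ∑ j ∈ range (m * L), pr m L q r j * pr m L q r (j + (m - 1)) =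
      L * (q 0 * q (m - 1)) + aa m q * xx L r := by
  have h0 : ∀ l ∈ range L,
      ∑ k ∈ range m, pr m L q r (m * l + k) * pr m L q r (m * l + k + (m - 1)) =
      q 0 * q (m - 1) + aa m q * (r l * r ((l + 1) % L)) := by
    intro l hl
    have hl' := Finset.mem_range.mp hl
    obtain ⟨M, rfl⟩ : ∃ M, m = M + 1 := ⟨m - 1, by omega⟩
    rw [Finset.sum_range_succ', add_comm, aa, Nat.add_sub_cancel, Finset.sum_mul]
    congr 1
    · rw [add_assoc, pr_eq q r (by omega), zero_add, pr_eq q r (by omega), Nat.mod_eq_of_lt hl']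
      have := sq (hr l hl')
      linear_combination (q 0 * q M) * this
    · refine Finset.sum_congr rfl fun k hk => ?_
      have hk' := Finset.mem_range.mp hk
      have e1 : (M + 1) * l + (k + 1) + M = (M + 1) * (l + 1) + k := by ring
      rw [e1, pr_eq q r (by omega), pr_eq q r (by omega), Nat.mod_eq_of_lt hl']
      ring
  rw [sum_mul, Finset.sum_congr rfl h0, Finset.sum_add_distrib, Finset.sum_const,
    Finset.card_range, nsmul_eq_mul, ← Finset.mul_sum, xx]

/-- the numerical conclusion -/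
theorem concl {m L s a b x : ℤ} (hm : 2 ≤ m) (hL : 0 ≤ L) (hb : b = 1 ∨ b = -1)
    (h1 : |m * x| ≤ 4 * s) (h2 : |L * a + b * x| ≤ 4 * s) (h3 : |L * b + a * x| ≤ 4 * s) :
    L ≤ 6 * s := by
  have hs : 0 ≤ s := by
    have := abs_nonneg (m * x)
    omega
  have hx : |x| ≤ 2 * s := by
    rw [abs_mul, abs_of_nonneg (by omega : (0 : ℤ) ≤ m)] at h1
    have := abs_nonneg x
    nlinarith
  by_cases ha : a = 0
  · rw [ha, zero_mul, add_zero, abs_mul, abs_of_nonneg hL] at h3
    have : |b| = 1 := by rcases hb with h | h <;> rw [h] <;> norm_num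
    rw [this] at h3
    omega
  · have ha1 : 1 ≤ |a| := Int.one_le_abs ha
    have h4 : L * |a| ≤ |L * a + b * x| + |x| := by
      have h5 : L * |a| = |(L * a + b * x) - b * x| := by
        rw [add_sub_cancel_right, abs_mul, abs_of_nonneg hL]
      have h6 : |b * x| = |x| := by
        rw [abs_mul]
        have : |b| = 1 := by rcases hb with h | h <;> rw [h] <;> norm_num
        rw [this, one_mul]
      rw [h5, ← h6]
      exact abs_sub _ _
    nlinarith

/-- changing `s` entries changes an autocorrelation by at most `4 s` -/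
theorem perturb {n : ℕ} [NeZero n] (h p : ZMod n → ℤ) (hh : ∀ j, h j = 1 ∨ h j = -1)
    (hp : ∀ j, p j = 1 ∨ p j = -1) (t : ZMod n) :
    |∑ j, p j * p (j + t) - ∑ j, h j * h (j + t)| ≤
      4 * ((Finset.univ.filter fun j => h j ≠ p j).card : ℤ) := by
  have e1 : ∑ j, p j * p (j + t) - ∑ j, h j * h (j + t) =
      ∑ j, (p j - h j) * p (j + t) + ∑ j, h j * (p (j + t) - h (j + t)) := by
    rw [← Finset.sum_sub_distrib, ← Finset.sum_add_distrib]
    refine Finset.sum_congr rfl fun j _ => ?_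
    ring
  have habs : ∀ e : ℤ, (e = 1 ∨ e = -1) → |e| = 1 := by
    intro e he
    rcases he with h | h <;> rw [h] <;> norm_num
  have hd : ∀ j, |p j - h j| = if h j ≠ p j then 2 else 0 := by
    intro j
    rcases hh j with h1 | h1 <;> rcases hp j with h2 | h2 <;> rw [h1, h2] <;> norm_num
  have hsum : ∑ j, |p j - h j| = 2 * ((Finset.univ.filter fun j => h j ≠ p j).card : ℤ) := by
    rw [Finset.sum_congr rfl fun j _ => hd j, ← Finset.sum_filter, Finset.sum_const, nsmul_eq_mul]
    ring
  have h1 : |∑ j, (p j - h j) * p (j + t)| ≤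
      2 * ((Finset.univ.filter fun j => h j ≠ p j).card : ℤ) := by
    rw [← hsum]
    refine le_trans (Finset.abs_sum_le_sum_abs _ _) (Finset.sum_le_sum fun j _ => ?_)
    rw [abs_mul, habs _ (hp _), mul_one]
  have h2 : |∑ j, h j * (p (j + t) - h (j + t))| ≤
      2 * ((Finset.univ.filter fun j => h j ≠ p j).card : ℤ) := by
    have e2 : ∑ j, |p j - h j| = ∑ j, |p (j + t) - h (j + t)| :=
      (Equiv.sum_comp (Equiv.addRight t) fun j => |p j - h j|).symm
    rw [← hsum, e2]
    refine le_trans (Finset.abs_sum_le_sum_abs _ _) (Finset.sum_le_sum fun j _ => ?_)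
    rw [abs_mul, habs _ (hh _), one_mul]
  rw [e1]
  refine le_trans (abs_add_le _ _) ?_
  linarith

end Vale.P033.Prod
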